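import Mathlib

/-!
# Row 91 (S0120, S0121): glue

* `NoC0 Y`: `Y` contains no seminormalised sequence all of whose signed finite sums are bounded
  (equivalently no subspace isomorphic to `c₀`).
* `Core H`: the statement to be proved for `H = ℝ` and `H = ℓ₂`.
* `s0120_of_core`, `s0121_of_core`: the two frozen statements from `Core`.
-/

set_option autoImplicit false

open Filter Topology

namespace Crest.Agent.R91

/-- `Y` has no seminormalised sequence with uniformly bounded signed finite sums. -/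
def NoC0 (Y : Type) [NormedAddCommGroup Y] [NormedSpace ℝ Y] : Prop :=
  ∀ (y : ℕ → Y) (c M : ℝ), 0 < c → (∀ j, c ≤ ‖y j‖) →
    ¬ (∀ (A : Finset ℕ) (ε : ℕ → ℝ), (∀ j, |ε j| ≤ 1) → ‖∑ j ∈ A, ε j • y j‖ ≤ M)

section C0

variable {H : Type} [NormedAddCommGroup H] [NormedSpace ℝ H]

theorem c0_norm_le {f : ZeroAtInftyContinuousMap ℕ H} {C : ℝ} (hC : 0 ≤ C) :
    ‖f‖ ≤ C ↔ ∀ n, ‖f n‖ ≤ C := by
  rw [← ZeroAtInftyContinuousMap.norm_toBCF_eq_norm, BoundedContinuousFunction.norm_le hC]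
  rfl

theorem c0_norm_apply_le (f : ZeroAtInftyContinuousMap ℕ H) (n : ℕ) : ‖f n‖ ≤ ‖f‖ :=
  (c0_norm_le (norm_nonneg f)).1 le_rfl n

/-- The element of `c₀(H)` with value `h` at `n` and `0` elsewhere. -/
noncomputable def c0single (n : ℕ) (h : H) : ZeroAtInftyContinuousMap ℕ H where
  toFun := Pi.single n h
  continuous_toFun := continuous_of_discreteTopology
  zero_at_infty' := by
    rw [Filter.cocompact_eq_cofinite]
    refine tendsto_nhds_of_eventually_eq ?_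
    rw [Filter.eventually_cofinite]
    refine (Set.finite_singleton n).subset fun m hm => ?_
    by_contra hmn
    exact hm (Pi.single_eq_of_ne (M := fun _ : ℕ => H) hmn h)

@[simp] theorem c0single_apply (n m : ℕ) (h : H) :
    c0single n h m = (Pi.single n h : ℕ → H) m := rfl

theorem norm_c0single (n : ℕ) (h : H) : ‖c0single n h‖ = ‖h‖ := by
  apply le_antisymm
  · rw [c0_norm_le (norm_nonneg h)]
    intro m
    by_cases hm : m = n
    · subst hm; simp
    · simp [Pi.single_eq_of_ne hm]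
  · have := c0_norm_apply_le (c0single n h) n
    simpa using this

theorem c0_sum_apply (A : Finset ℕ) (f : ℕ → ZeroAtInftyContinuousMap ℕ H) (m : ℕ) :
    (∑ j ∈ A, f j) m = ∑ j ∈ A, f j m := by
  classical
  induction A using Finset.induction_on with
  | empty => simp
  | insert a s ha ih => rw [Finset.sum_insert ha, Finset.sum_insert ha]; simp [ih]

theorem norm_sum_c0single_le (A : Finset ℕ) (ε : ℕ → ℝ) (hε : ∀ j, |ε j| ≤ 1) (h : H) :
    ‖∑ j ∈ A, ε j • c0single j h‖ ≤ ‖h‖ := by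
  classical
  rw [c0_norm_le (norm_nonneg h)]
  intro m
  rw [c0_sum_apply]
  have : ∀ j ∈ A, j ≠ m → (ε j • c0single j h) m = 0 := by
    intro j _ hj
    simp [Pi.single_eq_of_ne (Ne.symm hj)]
  by_cases hm : m ∈ A
  · rw [Finset.sum_eq_single_of_mem m hm this]
    have h1 : (ε m • c0single m h) m = ε m • h := by simp
    rw [h1, norm_smul, Real.norm_eq_abs]
    nlinarith [hε m, norm_nonneg h, abs_nonneg (ε m)]
  · rw [Finset.sum_eq_zero fun j hj => this j hj (fun h => hm (h ▸ hj))]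
    simp

/-- A bounded-below operator from `c₀(H)` (`H ≠ 0`) contradicts `NoC0`. -/
theorem not_noC0_of_bddBelow {Y : Type} [NormedAddCommGroup Y] [NormedSpace ℝ Y]
    (T : ZeroAtInftyContinuousMap ℕ H →L[ℝ] Y) {c : ℝ} (hc : 0 < c)
    (hT : ∀ f, c * ‖f‖ ≤ ‖T f‖) {h : H} (hh : h ≠ 0) : ¬ NoC0 Y := by
  intro hY
  refine hY (fun j => T (c0single j h)) (c * ‖h‖) (‖T‖ * ‖h‖) ?_ ?_ ?_
  · exact mul_pos hc (norm_pos_iff.2 hh)
  · intro j
    have := hT (c0single j h)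
    rwa [norm_c0single] at this
  · intro A ε hε
    have : ∑ j ∈ A, ε j • T (c0single j h) = T (∑ j ∈ A, ε j • c0single j h) := by
      simp [map_sum]
    rw [this]
    refine (T.le_opNorm _).trans ?_
    exact mul_le_mul_of_nonneg_left (norm_sum_c0single_le A ε hε h) (norm_nonneg _)

theorem noC0_isEmpty_submodule {Y : Type} [NormedAddCommGroup Y] [NormedSpace ℝ Y]
    (hY : NoC0 Y) {h : H} (hh : h ≠ 0) (S : Submodule ℝ Y) :
    IsEmpty (S ≃L[ℝ] ZeroAtInftyContinuousMap ℕ H) := by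
  refine ⟨fun e => ?_⟩
  set K : ℝ := ‖(e : S →L[ℝ] ZeroAtInftyContinuousMap ℕ H)‖ + 1 with hK
  have hpos : 0 < K := by positivity
  refine not_noC0_of_bddBelow (H := H) (Y := Y)
    (S.subtypeL.comp (e.symm : ZeroAtInftyContinuousMap ℕ H →L[ℝ] S))
    (inv_pos.2 hpos) ?_ hh hY
  intro f
  have h1 := (e : S →L[ℝ] ZeroAtInftyContinuousMap ℕ H).le_opNorm (e.symm f)
  have h2 : ‖f‖ ≤ ‖(e : S →L[ℝ] ZeroAtInftyContinuousMap ℕ H)‖ * ‖e.symm f‖ := by
    simpa using h1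
  have h3 : ‖(S.subtypeL.comp (e.symm : ZeroAtInftyContinuousMap ℕ H →L[ℝ] S)) f‖
      = ‖e.symm f‖ := by simp
  rw [h3, inv_mul_le_iff₀ hpos, hK]
  nlinarith [norm_nonneg (e.symm f)]

end C0

/-- The statement proved for `H = ℝ` and `H = ℓ₂`. -/
def Core (H : Type) [NormedAddCommGroup H] [NormedSpace ℝ H] : Prop :=
  ∃ (Z : Type) (_ : NormedAddCommGroup Z) (_ : NormedSpace ℝ Z),
    CompleteSpace Z ∧ TopologicalSpace.SeparableSpace Z ∧ NoC0 Z ∧
    ∃ Ψ : Z × ZeroAtInftyContinuousMap ℕ H → Z, Function.Bijective Ψ ∧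
      ∃ a b : ℝ, 0 < a ∧ 0 < b ∧ b ≤ (399 / 25) * a ∧
        ∀ s t, a * ‖s - t‖ ≤ ‖Ψ s - Ψ t‖ ∧ ‖Ψ s - Ψ t‖ ≤ b * ‖s - t‖

theorem s0121_of_core (hcore : Core ℝ) :
    ∃ (Z : Type) (_ : NormedAddCommGroup Z) (_ : NormedSpace ℝ Z),
      CompleteSpace Z ∧ TopologicalSpace.SeparableSpace Z ∧
      (∀ S : Submodule ℝ Z, IsClosed (S : Set Z) →
        IsEmpty (S ≃L[ℝ] ZeroAtInftyContinuousMap ℕ ℝ)) ∧
      ∃ F : Z × ZeroAtInftyContinuousMap ℕ ℝ → Z, Function.Surjective F ∧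
        ∃ c C : ℝ, 0 < c ∧
          ∀ u v : Z × ZeroAtInftyContinuousMap ℕ ℝ,
            c * ‖u - v‖ ≤ ‖F u - F v‖ ∧ ‖F u - F v‖ ≤ C * ‖u - v‖ := by
  obtain ⟨Z, i1, i2, hc, hs, hno, Ψ, hbij, a, b, ha, hb, hab, hΨ⟩ := hcore
  refine ⟨Z, i1, i2, hc, hs, fun S _ => noC0_isEmpty_submodule hno (one_ne_zero' ℝ) S,
    Ψ, hbij.2, a, b, ha, hΨ⟩

/-- Separability of `C₀(ℕ, H)`. -/
theorem separable_c0 (H : Type) [NormedAddCommGroup H] [NormedSpace ℝ H]
    [TopologicalSpace.SeparableSpace H] :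
    TopologicalSpace.SeparableSpace (ZeroAtInftyContinuousMap ℕ H) := by
  classical
  obtain ⟨D, hDc, hDd⟩ := TopologicalSpace.exists_countable_dense H
  -- finite sums of `c0single n d`
  let L : Finset (ℕ × D) → ZeroAtInftyContinuousMap ℕ H :=
    fun A => ∑ p ∈ A, c0single p.1 (p.2 : H)
  haveI : Countable D := hDc.to_subtype
  refine ⟨⟨Set.range L, Set.countable_range L, ?_⟩⟩
  rw [Metric.dense_iff]
  intro f r hr
  -- choose N with tails small
  have hf := f.zero_at_infty'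
  rw [Filter.cocompact_eq_cofinite] at hf
  have hev : ∀ᶠ n in Filter.cofinite, ‖f n‖ < r / 2 := by
    have := (tendsto_norm_zero.comp hf).eventually (gt_mem_nhds (half_pos hr))
    simpa using this
  rw [Filter.eventually_cofinite] at hev
  set B : Finset ℕ := hev.toFinset with hB
  have hchoose : ∀ n : ℕ, ∃ d : D, ‖f n - d‖ < r / 2 := by
    intro n
    obtain ⟨d, hd, hdd⟩ := Metric.dense_iff.1 hDd (f n) (r / 2) (half_pos hr)
    refine ⟨⟨d, hdd⟩, ?_⟩
    rw [Metric.mem_ball, dist_comm, dist_eq_norm] at hd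
    exact hd
  choose d hd using hchoose
  refine ⟨L (B.image fun n => (n, d n)), ?_, ⟨_, rfl⟩⟩
  rw [Metric.mem_ball, dist_eq_norm]
  have hL : L (B.image fun n => (n, d n)) = ∑ n ∈ B, c0single n (d n : H) := by
    simp only [L]
    rw [Finset.sum_image]
    intro x _ y _ hxy
    exact (Prod.mk.inj hxy).1
  rw [hL]
  refine lt_of_le_of_lt ((c0_norm_le (half_pos hr).le).2 fun n => ?_) (half_lt_self hr)
  have hval : (∑ m ∈ B, c0single m (d m : H)) n = if n ∈ B then (d n : H) else 0 := by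
    rw [c0_sum_apply]
    by_cases hn : n ∈ B
    · rw [if_pos hn, Finset.sum_eq_single_of_mem n hn]
      · simp
      · intro m _ hm
        simp [Pi.single_eq_of_ne (Ne.symm hm)]
    · rw [if_neg hn]
      refine Finset.sum_eq_zero fun m hm => ?_
      have : n ≠ m := fun h => hn (h ▸ hm)
      simp [Pi.single_eq_of_ne this]
  have hsub : ((∑ m ∈ B, c0single m (d m : H)) - f) n
      = (∑ m ∈ B, c0single m (d m : H)) n - f n := rfl
  rw [hsub, hval]
  by_cases hn : n ∈ B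
  · rw [if_pos hn, norm_sub_rev]
    exact (hd n).le
  · rw [if_neg hn, zero_sub, norm_neg]
    have : ¬ ¬ ‖f n‖ < r / 2 := fun h => hn (by rw [hB, Set.Finite.mem_toFinset]; exact h)
    exact (not_not.1 this).le

/-- Separability of `ℓ₂(ι; H)`. -/
theorem separable_l2 (ι : Type) [Countable ι] (H : Type) [NormedAddCommGroup H]
    [NormedSpace ℝ H] [TopologicalSpace.SeparableSpace H] :
    TopologicalSpace.SeparableSpace (lp (fun _ : ι => H) 2) := by
  classical
  rw [← TopologicalSpace.isSeparable_univ_iff]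
  let g : (A : Finset ι) → (A → H) → lp (fun _ : ι => H) 2 :=
    fun A d => ∑ i : A, lp.single 2 (i : ι) (d i)
  have hg : ∀ A, Continuous (g A) := by
    intro A
    refine continuous_finsetSum _ fun i _ => ?_
    have h1 : Continuous fun x : H => lp.single (E := fun _ : ι => H) 2 (i : ι) x := by
      refine LipschitzWith.continuous (K := 1) (LipschitzWith.of_dist_le_mul fun x y => ?_)
      rw [dist_eq_norm, dist_eq_norm, ← lp.single_sub, lp.norm_single (by norm_num)]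
      simp
    exact h1.comp (continuous_apply i)
  have hsep : TopologicalSpace.IsSeparable (⋃ A : Finset ι, Set.range (g A)) :=
    TopologicalSpace.isSeparable_iUnion.2 fun A => TopologicalSpace.isSeparable_range (hg A)
  refine hsep.closure.mono fun f _ => ?_
  have h1 := lp.hasSum_single (E := fun _ : ι => H) (p := 2) (by norm_num) f
  refine mem_closure_of_tendsto h1 (Filter.Eventually.of_forall fun A => ?_)
  refine Set.mem_iUnion.2 ⟨A, ⟨fun i => f i, ?_⟩⟩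
  simp only [g]
  exact (Finset.sum_coe_sort A fun i => lp.single (E := fun _ : ι => H) 2 i (f i))

theorem s0120_of_core
    (hcore : Core (lp (fun _ : ℕ => ℝ) 2)) :
    ∃ (X : Type) (_ : NormedAddCommGroup X) (_ : NormedSpace ℝ X)
      (Y : Type) (_ : NormedAddCommGroup Y) (_ : NormedSpace ℝ Y),
      CompleteSpace X ∧ TopologicalSpace.SeparableSpace X ∧
      CompleteSpace Y ∧ TopologicalSpace.SeparableSpace Y ∧
      (∃ Ψ : X → Y, Function.Bijective Ψ ∧
        ∀ s t : X, (4 / 21 : ℝ) * ‖s - t‖ ≤ ‖Ψ s - Ψ t‖ ∧ ‖Ψ s - Ψ t‖ ≤ (76 / 25 : ℝ) * ‖s - t‖) ∧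
      Nonempty (ZeroAtInftyContinuousMap ℕ (lp (fun _ : ℕ => ℝ) 2) →ₗᵢ[ℝ] X) ∧
      (∀ S : Submodule ℝ Y, IsClosed (S : Set Y) →
        IsEmpty (S ≃L[ℝ] ZeroAtInftyContinuousMap ℕ (lp (fun _ : ℕ => ℝ) 2))) ∧
      IsEmpty (X ≃L[ℝ] Y) := by
  obtain ⟨Z, i1, i2, hc, hs, hno, Ψ, hbij, a, b, ha, hb, hab, hΨ⟩ := hcore
  haveI := hc
  haveI := hs
  have hh : ∃ h : lp (fun _ : ℕ => ℝ) 2, h ≠ 0 := by
    refine ⟨lp.single 2 0 (1 : ℝ), ?_⟩
    intro h0
    have h1 : ‖lp.single (E := fun _ : ℕ => ℝ) 2 0 (1 : ℝ)‖ = ‖(1 : ℝ)‖ :=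
      lp.norm_single (by norm_num) _ _
    rw [h0] at h1
    simp at h1
  obtain ⟨h, hh⟩ := hh
  haveI : TopologicalSpace.SeparableSpace (lp (fun _ : ℕ => ℝ) 2) := separable_l2 ℕ ℝ
  haveI := separable_c0 (lp (fun _ : ℕ => ℝ) 2)
  have hinr : ∀ f : ZeroAtInftyContinuousMap ℕ (lp (fun _ : ℕ => ℝ) 2),
      ‖((0 : Z), f)‖ = ‖f‖ := by
    intro f
    simp [Prod.norm_def]
  refine ⟨Z × ZeroAtInftyContinuousMap ℕ (lp (fun _ : ℕ => ℝ) 2), inferInstance, inferInstance,
    Z, i1, i2, inferInstance, inferInstance, hc, hs, ?_, ?_, ?_, ?_⟩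
  · have hlam : (0 : ℝ) < (76 / 25) / b := by positivity
    refine ⟨fun s => ((76 / 25) / b : ℝ) • Ψ s, ?_, ?_⟩
    · constructor
      · intro s t hst
        exact hbij.1 (smul_right_injective Z hlam.ne' hst)
      · intro z
        obtain ⟨s, hs⟩ := hbij.2 ((((76 / 25) / b : ℝ))⁻¹ • z)
        refine ⟨s, ?_⟩
        simp only [hs]
        rw [smul_smul, mul_inv_cancel₀ hlam.ne', one_smul]
    · intro s t
      obtain ⟨h1, h2⟩ := hΨ s t
      rw [← smul_sub, norm_smul, Real.norm_eq_abs, abs_of_pos hlam]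
      constructor
      · have h3 : (4 / 21 : ℝ) * ‖s - t‖ ≤ ((76 / 25) / b) * (a * ‖s - t‖) := by
          rw [← mul_assoc]
          refine mul_le_mul_of_nonneg_right ?_ (norm_nonneg _)
          rw [div_mul_eq_mul_div, le_div_iff₀ hb]
          linarith
        exact h3.trans (mul_le_mul_of_nonneg_left h1 hlam.le)
      · refine (mul_le_mul_of_nonneg_left h2 hlam.le).trans ?_
        rw [← mul_assoc, div_mul_cancel₀ _ hb.ne']
  · exact ⟨{ LinearMap.inr ℝ Z (ZeroAtInftyContinuousMap ℕ (lp (fun _ : ℕ => ℝ) 2)) with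
      norm_map' := fun f => hinr f }⟩
  · intro S _
    exact noC0_isEmpty_submodule hno hh S
  · refine ⟨fun e => ?_⟩
    -- compose with `inr`
    let T : ZeroAtInftyContinuousMap ℕ (lp (fun _ : ℕ => ℝ) 2) →L[ℝ] Z :=
      (e : (Z × ZeroAtInftyContinuousMap ℕ (lp (fun _ : ℕ => ℝ) 2)) →L[ℝ] Z).comp
        (ContinuousLinearMap.inr ℝ Z _)
    have hbd : ∃ c : ℝ, 0 < c ∧ ∀ f, c * ‖f‖ ≤ ‖T f‖ := by
      refine ⟨(‖(e.symm : Z →L[ℝ] (Z × ZeroAtInftyContinuousMap ℕ (lp (fun _ : ℕ => ℝ) 2)))‖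
        + 1)⁻¹, by positivity, fun f => ?_⟩
      rw [inv_mul_le_iff₀ (by positivity)]
      have h1 := (e.symm : Z →L[ℝ] (Z × ZeroAtInftyContinuousMap ℕ
        (lp (fun _ : ℕ => ℝ) 2))).le_opNorm (T f)
      have h2 : (e.symm : Z →L[ℝ] (Z × ZeroAtInftyContinuousMap ℕ
        (lp (fun _ : ℕ => ℝ) 2))) (T f) = ((0 : Z), f) := by
        simp [T]
      rw [h2, hinr] at h1
      nlinarith [norm_nonneg (T f)]
    obtain ⟨c, hc0, hcT⟩ := hbd
    exact not_noC0_of_bddBelow T hc0 hcT hh hno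

end Crest.Agent.R91
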