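import Mathlib

/-!
# R91 / Homeo (helper935): triangular bi-Lipschitz bijections of c₀-sums

`T n v t : E → F` is a family of norm-preserving bijections, depending only on `v m`, `m < n` (this
follows from the Lipschitz estimate with `δ = 0`), slowly varying.
Then `v ↦ (T n v ‖v n‖ (v n))_n` is a bi-Lipschitz bijection of `c₀(E)` onto `c₀(F)`.
-/

set_option autoImplicit false

namespace Crest.Agent.R91.HM

open Filter Topology ZeroAtInfty

section C0
variable {E : Type*} [NormedAddCommGroup E]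

theorem c0_norm_apply_le (f : C₀(ℕ, E)) (n : ℕ) : ‖f n‖ ≤ ‖f‖ := by
  rw [← ZeroAtInftyContinuousMap.norm_toBCF_eq_norm]
  exact f.toBCF.norm_coe_le_norm n

theorem c0_norm_le {f : C₀(ℕ, E)} {C : ℝ} (hC : 0 ≤ C) (h : ∀ n, ‖f n‖ ≤ C) : ‖f‖ ≤ C := by
  rw [← ZeroAtInftyContinuousMap.norm_toBCF_eq_norm]
  exact (BoundedContinuousFunction.norm_le hC).2 h

theorem c0_tendsto (f : C₀(ℕ, E)) : Tendsto (fun n => f n) atTop (𝓝 0) := by
  have := f.zero_at_infty'
  rwa [cocompact_eq_cofinite, Nat.cofinite_eq_atTop] at this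

/-- null sequences as elements of `C₀(ℕ, E)` -/
def c0mk (f : ℕ → E) (h : Tendsto f atTop (𝓝 0)) : C₀(ℕ, E) where
  toFun := f
  continuous_toFun := continuous_of_discreteTopology
  zero_at_infty' := by rw [cocompact_eq_cofinite, Nat.cofinite_eq_atTop]; exact h

@[simp] theorem c0mk_apply (f : ℕ → E) (h : Tendsto f atTop (𝓝 0)) (n : ℕ) : c0mk f h n = f n := rfl

end C0

/-- A triangular family of norm preserving bijections. -/
structure Tri (E F : Type*) [NormedAddCommGroup E] [NormedAddCommGroup F] (κ : ℝ) where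
  /-- the maps -/
  T : ℕ → (ℕ → E) → ℝ → E → F
  /-- the inverses -/
  S : ℕ → (ℕ → E) → ℝ → F → E
  left_inv : ∀ n v t e, S n v t (T n v t e) = e
  right_inv : ∀ n v t f, T n v t (S n v t f) = f
  norm_T : ∀ n v t e, ‖T n v t e‖ = ‖e‖
  T_lip : ∀ n v v' e e' δ, (∀ m < n, ‖v m - v' m‖ ≤ δ) → ‖e - e'‖ ≤ δ →
    ‖T n v ‖e‖ e - T n v' ‖e'‖ e'‖ ≤ ‖e - e'‖ + κ * δ
  S_lip : ∀ n v v' f f' δ, (∀ m < n, ‖v m - v' m‖ ≤ δ) → ‖f - f'‖ ≤ δ →
    ‖S n v ‖f‖ f - S n v' ‖f'‖ f'‖ ≤ ‖f - f'‖ + κ * δ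

namespace Tri

variable {E F : Type*} [NormedAddCommGroup E] [NormedAddCommGroup F] {κ : ℝ} (A : Tri E F κ)

theorem norm_S (n : ℕ) (v : ℕ → E) (t : ℝ) (f : F) : ‖A.S n v t f‖ = ‖f‖ := by
  have := A.norm_T n v t (A.S n v t f)
  rw [A.right_inv] at this
  exact this.symm

theorem T_congr {n : ℕ} {v v' : ℕ → E} (h : ∀ m < n, v m = v' m) (e : E) :
    A.T n v ‖e‖ e = A.T n v' ‖e‖ e := by
  have := A.T_lip n v v' e e 0 (fun m hm => by rw [h m hm, sub_self, norm_zero])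
    (by rw [sub_self, norm_zero])
  rw [sub_self, norm_zero, mul_zero, add_zero] at this
  exact sub_eq_zero.1 (norm_le_zero_iff.1 this)

/-- the map on sequences -/
def map (v : ℕ → E) (n : ℕ) : F := A.T n v ‖v n‖ (v n)

/-- prefixes of the inverse image -/
def pre (y : ℕ → F) : ℕ → ℕ → E
  | 0 => fun _ => 0
  | n + 1 => fun m => if m = n then A.S n (pre y n) ‖y n‖ (y n) else pre y n m

/-- the inverse map on sequences -/
def inv (y : ℕ → F) (n : ℕ) : E := A.S n (A.pre y n) ‖y n‖ (y n)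

theorem pre_eq (y : ℕ → F) {n m : ℕ} (h : m < n) : A.pre y n m = A.inv y m := by
  induction n with
  | zero => exact absurd h (Nat.not_lt_zero _)
  | succ n ih =>
    unfold pre
    by_cases hm : m = n
    · subst hm; simp [inv]
    · rw [if_neg hm]; exact ih (by omega)

theorem norm_map (v : ℕ → E) (n : ℕ) : ‖A.map v n‖ = ‖v n‖ := A.norm_T _ _ _ _

theorem norm_inv (y : ℕ → F) (n : ℕ) : ‖A.inv y n‖ = ‖y n‖ := A.norm_S _ _ _ _

theorem map_inv (y : ℕ → F) : A.map (A.inv y) = y := by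
  funext n
  unfold map
  rw [A.norm_inv, ← A.norm_inv y n, A.T_congr (v' := A.pre y n) (fun m hm => (A.pre_eq y hm).symm),
    A.norm_inv]
  exact A.right_inv _ _ _ _

/-- Lipschitz estimate -/
theorem map_lip {v v' : ℕ → E} {δ : ℝ} (h : ∀ n, ‖v n - v' n‖ ≤ δ) (n : ℕ) :
    ‖A.map v n - A.map v' n‖ ≤ (1 + κ) * δ := by
  have := A.T_lip n v v' (v n) (v' n) δ (fun m _ => h m) (h n)
  have h2 := h n
  unfold map
  linarith

/-- lower Lipschitz estimate -/
theorem map_lip_inv {v v' : ℕ → E} {δ : ℝ} (hδ : 0 ≤ δ) (hκ : 0 ≤ κ) (hκ1 : κ < 1)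
    (h : ∀ n, ‖A.map v n - A.map v' n‖ ≤ δ) (n : ℕ) : ‖v n - v' n‖ ≤ (1 - κ)⁻¹ * δ := by
  have h1 : 0 < 1 - κ := by linarith
  have hK : 1 ≤ (1 - κ)⁻¹ := (one_le_inv₀ h1).2 (by linarith)
  induction n using Nat.strong_induction_on with
  | _ n ih =>
    have h2 : δ ≤ (1 - κ)⁻¹ * δ := le_mul_of_one_le_left hδ hK
    have := A.S_lip n v v' (A.map v n) (A.map v' n) ((1 - κ)⁻¹ * δ) ih ((h n).trans h2)
    rw [A.norm_map, A.norm_map] at this
    have e1 : A.S n v ‖v n‖ (A.map v n) = v n := A.left_inv _ _ _ _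
    have e2 : A.S n v' ‖v' n‖ (A.map v' n) = v' n := A.left_inv _ _ _ _
    rw [e1, e2] at this
    refine this.trans ?_
    have h3 := h n
    have h4 : (1 - κ)⁻¹ * δ = δ + κ * ((1 - κ)⁻¹ * δ) := by field_simp; ring
    linarith

theorem map_injective (hκ : 0 ≤ κ) (hκ1 : κ < 1) : Function.Injective A.map := by
  intro v v' h
  funext n
  have := A.map_lip_inv (v := v) (v' := v') le_rfl hκ hκ1 (fun n => by
    rw [h, sub_self, norm_zero]) n
  rw [mul_zero] at this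
  exact sub_eq_zero.1 (norm_le_zero_iff.1 this)

theorem inv_map (hκ : 0 ≤ κ) (hκ1 : κ < 1) (v : ℕ → E) : A.inv (A.map v) = v :=
  A.map_injective hκ hκ1 (A.map_inv _)

/-- the bijection `c₀(E) → c₀(F)` -/
def equiv (hκ : 0 ≤ κ) (hκ1 : κ < 1) : C₀(ℕ, E) ≃ C₀(ℕ, F) where
  toFun v := c0mk (A.map v) (by
    rw [tendsto_zero_iff_norm_tendsto_zero]
    simp only [A.norm_map]
    exact tendsto_zero_iff_norm_tendsto_zero.1 (c0_tendsto v))
  invFun y := c0mk (A.inv y) (by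
    rw [tendsto_zero_iff_norm_tendsto_zero]
    simp only [A.norm_inv]
    exact tendsto_zero_iff_norm_tendsto_zero.1 (c0_tendsto y))
  left_inv v := by
    ext n
    show A.inv (A.map v) n = v n
    rw [A.inv_map hκ hκ1]
  right_inv y := by
    ext n
    show A.map (A.inv y) n = y n
    rw [A.map_inv]

@[simp] theorem equiv_apply (hκ : 0 ≤ κ) (hκ1 : κ < 1) (v : C₀(ℕ, E)) (n : ℕ) :
    A.equiv hκ hκ1 v n = A.T n v ‖v n‖ (v n) := rfl

theorem norm_equiv_apply (hκ : 0 ≤ κ) (hκ1 : κ < 1) (v : C₀(ℕ, E)) (n : ℕ) :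
    ‖A.equiv hκ hκ1 v n‖ = ‖v n‖ := A.norm_map _ _

theorem equiv_lip (hκ : 0 ≤ κ) (hκ1 : κ < 1) (v v' : C₀(ℕ, E)) :
    ‖A.equiv hκ hκ1 v - A.equiv hκ hκ1 v'‖ ≤ (1 + κ) * ‖v - v'‖ := by
  refine c0_norm_le (by positivity) fun n => ?_
  exact A.map_lip (fun m => c0_norm_apply_le (v - v') m) n

theorem equiv_lip_inv (hκ : 0 ≤ κ) (hκ1 : κ < 1) (v v' : C₀(ℕ, E)) :
    ‖v - v'‖ ≤ (1 - κ)⁻¹ * ‖A.equiv hκ hκ1 v - A.equiv hκ hκ1 v'‖ := by
  have h1 : 0 < 1 - κ := by linarith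
  refine c0_norm_le (by positivity) fun n => ?_
  exact A.map_lip_inv (norm_nonneg _) hκ hκ1
    (fun m => c0_norm_apply_le (A.equiv hκ hκ1 v - A.equiv hκ hκ1 v') m) n

end Tri

/-! ### slowly varying linear isometries -/

section slow
variable {E F P : Type*} [NormedAddCommGroup E] [NormedAddCommGroup F]
  [NormedSpace ℝ E] [NormedSpace ℝ F] [PseudoMetricSpace P]

/-- From a family `U θ : E ≃ₗᵢ F` with `‖U θ e - U θ' e‖ ≤ a dist θ θ' ‖e‖` and a slowly varying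
parameter `θ n v t` we get a triangular family. -/
def Tri.ofSlow (U : P → E ≃ₗᵢ[ℝ] F) {a L : ℝ} (ha : 0 ≤ a) (hL : 0 ≤ L)
    (hU : ∀ θ θ' e, ‖U θ e - U θ' e‖ ≤ a * dist θ θ' * ‖e‖)
    (θ : ℕ → (ℕ → E) → ℝ → P)
    (h1 : ∀ n v v' t δ, 0 < t → (∀ m < n, ‖v m - v' m‖ ≤ δ) → dist (θ n v t) (θ n v' t) ≤ L * (δ / t))
    (h2 : ∀ n v t t', 0 < t → t ≤ t' → dist (θ n v t) (θ n v t') ≤ L * ((t' - t) / t)) :
    Tri E F (2 * a * L) where
  T n v t := U (θ n v t)
  S n v t := (U (θ n v t)).symm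
  left_inv n v t e := (U (θ n v t)).symm_apply_apply e
  right_inv n v t f := (U (θ n v t)).apply_symm_apply f
  norm_T n v t e := (U (θ n v t)).norm_map e
  T_lip := by
    have key : ∀ n (v v' : ℕ → E) (e e' : E) δ, ‖e‖ ≤ ‖e'‖ → (∀ m < n, ‖v m - v' m‖ ≤ δ) →
        ‖e - e'‖ ≤ δ →
        ‖U (θ n v ‖e‖) e - U (θ n v' ‖e'‖) e'‖ ≤ ‖e - e'‖ + 2 * a * L * δ := by
      intro n v v' e e' δ hle hv hδ
      have hδ0 : 0 ≤ δ := (norm_nonneg _).trans hδ
      rcases eq_or_ne e 0 with rfl | he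
      · rw [map_zero, zero_sub, norm_neg, LinearIsometryEquiv.norm_map, zero_sub, norm_neg]
        have : 0 ≤ 2 * a * L * δ := by positivity
        linarith
      have het : 0 < ‖e‖ := norm_pos_iff.2 he
      have h3 : dist (θ n v ‖e‖) (θ n v' ‖e'‖) ≤ L * (2 * δ / ‖e‖) := by
        calc dist (θ n v ‖e‖) (θ n v' ‖e'‖) ≤ dist (θ n v ‖e‖) (θ n v' ‖e‖) + dist (θ n v' ‖e‖) (θ n v' ‖e'‖) :=
              dist_triangle _ _ _
          _ ≤ L * (δ / ‖e‖) + L * ((‖e'‖ - ‖e‖) / ‖e‖) :=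
              add_le_add (h1 n v v' _ δ het hv) (h2 n v' _ _ het hle)
          _ ≤ L * (δ / ‖e‖) + L * (δ / ‖e‖) := by
              have : ‖e'‖ - ‖e‖ ≤ δ := by
                have := norm_sub_norm_le e' e
                rw [norm_sub_rev] at this
                linarith
              gcongr
          _ = L * (2 * δ / ‖e‖) := by ring
      calc ‖U (θ n v ‖e‖) e - U (θ n v' ‖e'‖) e'‖
          ≤ ‖U (θ n v ‖e‖) e - U (θ n v' ‖e'‖) e‖ + ‖U (θ n v' ‖e'‖) e - U (θ n v' ‖e'‖) e'‖ :=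
            norm_sub_le_norm_sub_add_norm_sub _ _ _
        _ ≤ a * (L * (2 * δ / ‖e‖)) * ‖e‖ + ‖e - e'‖ := by
            rw [← map_sub, LinearIsometryEquiv.norm_map]
            gcongr
            exact (hU _ _ _).trans (by gcongr)
        _ = _ := by field_simp; ring
    intro n v v' e e' δ hv hδ
    rcases le_total ‖e‖ ‖e'‖ with h | h
    · exact key n v v' e e' δ h hv hδ
    · have := key n v' v e' e δ h (fun m hm => by rw [norm_sub_rev]; exact hv m hm)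
        (by rw [norm_sub_rev]; exact hδ)
      rwa [norm_sub_rev, norm_sub_rev e' e] at this
  S_lip := by
    have hUs : ∀ θ θ' f, ‖(U θ).symm f - (U θ').symm f‖ ≤ a * dist θ θ' * ‖f‖ := by
      intro θ θ' f
      have h3 := hU θ θ' ((U θ').symm f)
      rw [LinearIsometryEquiv.norm_map, LinearIsometryEquiv.apply_symm_apply] at h3
      have h4 : ‖(U θ).symm f - (U θ').symm f‖ = ‖U θ ((U θ').symm f) - f‖ := by
        rw [← LinearIsometryEquiv.norm_map (U θ) ((U θ).symm f - (U θ').symm f), map_sub,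
          LinearIsometryEquiv.apply_symm_apply, norm_sub_rev]
      rw [h4]; exact h3
    have key : ∀ n (v v' : ℕ → E) (f f' : F) δ, ‖f‖ ≤ ‖f'‖ → (∀ m < n, ‖v m - v' m‖ ≤ δ) →
        ‖f - f'‖ ≤ δ →
        ‖(U (θ n v ‖f‖)).symm f - (U (θ n v' ‖f'‖)).symm f'‖ ≤ ‖f - f'‖ + 2 * a * L * δ := by
      intro n v v' f f' δ hle hv hδ
      have hδ0 : 0 ≤ δ := (norm_nonneg _).trans hδ
      rcases eq_or_ne f 0 with rfl | he
      · rw [map_zero, zero_sub, norm_neg, LinearIsometryEquiv.norm_map, zero_sub, norm_neg]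
        have : 0 ≤ 2 * a * L * δ := by positivity
        linarith
      have het : 0 < ‖f‖ := norm_pos_iff.2 he
      have h3 : dist (θ n v ‖f‖) (θ n v' ‖f'‖) ≤ L * (2 * δ / ‖f‖) := by
        calc dist (θ n v ‖f‖) (θ n v' ‖f'‖) ≤ dist (θ n v ‖f‖) (θ n v' ‖f‖) + dist (θ n v' ‖f‖) (θ n v' ‖f'‖) :=
              dist_triangle _ _ _
          _ ≤ L * (δ / ‖f‖) + L * ((‖f'‖ - ‖f‖) / ‖f‖) :=
              add_le_add (h1 n v v' _ δ het hv) (h2 n v' _ _ het hle)
          _ ≤ L * (δ / ‖f‖) + L * (δ / ‖f‖) := by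
              have : ‖f'‖ - ‖f‖ ≤ δ := by
                have := norm_sub_norm_le f' f
                rw [norm_sub_rev] at this
                linarith
              gcongr
          _ = L * (2 * δ / ‖f‖) := by ring
      calc ‖(U (θ n v ‖f‖)).symm f - (U (θ n v' ‖f'‖)).symm f'‖
          ≤ ‖(U (θ n v ‖f‖)).symm f - (U (θ n v' ‖f'‖)).symm f‖ +
            ‖(U (θ n v' ‖f'‖)).symm f - (U (θ n v' ‖f'‖)).symm f'‖ :=
            norm_sub_le_norm_sub_add_norm_sub _ _ _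
        _ ≤ a * (L * (2 * δ / ‖f‖)) * ‖f‖ + ‖f - f'‖ := by
            rw [← map_sub, LinearIsometryEquiv.norm_map]
            gcongr
            exact (hUs _ _ _).trans (by gcongr)
        _ = _ := by field_simp; ring
    intro n v v' f f' δ hv hδ
    rcases le_total ‖f‖ ‖f'‖ with h | h
    · exact key n v v' f f' δ h hv hδ
    · have := key n v' v f' f δ h (fun m hm => by rw [norm_sub_rev]; exact hv m hm)
        (by rw [norm_sub_rev]; exact hδ)
      rwa [norm_sub_rev, norm_sub_rev f' f] at this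

end slow

end Crest.Agent.R91.HM
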