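import Mathlib
import Crest.Agent.R91.Homeo

/-!
# R91 / Hotel (helper935): the Hilbert-hotel isometries `R_θ : H ⊕₂ V₀ → V₀`
-/

set_option autoImplicit false
set_option linter.unusedSectionVars false

namespace Crest.Agent.R91.HM

open Filter Topology
open scoped ENNReal

/-- square-summable families -/
abbrev Ltwo (J E : Type*) [NormedAddCommGroup E] := lp (fun _ : J => E) 2

section basics
variable {J E : Type*} [NormedAddCommGroup E]

theorem lp2_norm_sq (f : Ltwo J E) : ‖f‖ ^ 2 = ∑' j, ‖f j‖ ^ 2 := by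
  have h := lp.norm_rpow_eq_tsum (p := 2) (by norm_num) f
  simpa using h

theorem lp2_summable (f : Ltwo J E) : Summable fun j => ‖f j‖ ^ 2 := by
  have h := (lp.memℓp f).summable (p := 2) (by norm_num)
  simpa using h

theorem memLp2 {f : J → E} (h : Summable fun j => ‖f j‖ ^ 2) : Memℓp f 2 := by
  refine memℓp_gen ?_
  simpa using h

end basics

section shift
variable {H : Type*} [NormedAddCommGroup H] [InnerProductSpace ℝ H]

/-- the sequence `x, g 0, g 1, …` -/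
def consF (x : H) (g : ℕ → H) : ℕ → H
  | 0 => x
  | n + 1 => g n

@[simp] theorem consF_zero (x : H) (g : ℕ → H) : consF x g 0 = x := rfl
@[simp] theorem consF_succ (x : H) (g : ℕ → H) (n : ℕ) : consF x g (n + 1) = g n := rfl

/-- the element `x, g 0, g 1, …` of `ℓ₂(H)` -/
noncomputable def cons2 (x : H) (g : Ltwo ℕ H) : Ltwo ℕ H :=
  ⟨consF x g, memLp2 (by
    rw [← summable_nat_add_iff 1]
    exact lp2_summable g)⟩

/-- the tail -/
noncomputable def tail2 (f : Ltwo ℕ H) : Ltwo ℕ H :=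
  ⟨fun n => f (n + 1), memLp2 ((summable_nat_add_iff 1).2 (lp2_summable f))⟩

@[simp] theorem cons2_zero (x : H) (g : Ltwo ℕ H) : cons2 x g 0 = x := rfl
@[simp] theorem cons2_succ (x : H) (g : Ltwo ℕ H) (n : ℕ) : cons2 x g (n + 1) = g n := rfl
@[simp] theorem tail2_apply (f : Ltwo ℕ H) (n : ℕ) : tail2 f n = f (n + 1) := rfl

theorem norm_cons2_sq (x : H) (g : Ltwo ℕ H) : ‖cons2 x g‖ ^ 2 = ‖x‖ ^ 2 + ‖g‖ ^ 2 := by
  rw [lp2_norm_sq, lp2_norm_sq, (lp2_summable (cons2 x g)).tsum_eq_zero_add]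
  rfl

/-- `(x, g) ↦ (x, g₀, g₁, …)` -/
noncomputable def consL : WithLp 2 (H × Ltwo ℕ H) ≃ₗᵢ[ℝ] Ltwo ℕ H where
  toFun z := cons2 z.fst z.snd
  map_add' z z' := by
    ext n; rcases n with _ | n <;> simp
  map_smul' r z := by
    ext n; rcases n with _ | n <;> simp
  invFun f := WithLp.toLp 2 (f 0, tail2 f)
  left_inv z := by
    have h : tail2 (cons2 z.fst z.snd) = z.snd := by ext n; simp
    simp only [cons2_zero, h]
    rfl
  right_inv f := by
    ext n; rcases n with _ | n <;> simp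
  norm_map' z := by
    have h1 := norm_cons2_sq z.fst z.snd
    have h2 := WithLp.prod_norm_sq_eq_of_L2 z
    have h3 : ‖cons2 z.fst z.snd‖ ^ 2 = ‖z‖ ^ 2 := by rw [h1, h2]
    exact (sq_eq_sq₀ (norm_nonneg _) (norm_nonneg _)).1 h3

end shift

/-! ### tensor with a vector of `ℓ₂(J)` -/

section tens
variable {J L : Type*} [NormedAddCommGroup L] [NormedSpace ℝ L]

/-- `θ ⊗ g` -/
noncomputable def tens (θ : Ltwo J ℝ) (g : L) : Ltwo J L :=
  ⟨fun j => θ j • g, memLp2 (by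
    have := (lp2_summable θ).mul_right (‖g‖ ^ 2)
    refine this.congr fun j => ?_
    rw [norm_smul, mul_pow])⟩

@[simp] theorem tens_apply (θ : Ltwo J ℝ) (g : L) (j : J) : tens θ g j = θ j • g := rfl

theorem norm_tens (θ : Ltwo J ℝ) (g : L) : ‖tens θ g‖ = ‖θ‖ * ‖g‖ := by
  have h : ‖tens θ g‖ ^ 2 = (‖θ‖ * ‖g‖) ^ 2 := by
    rw [mul_pow, lp2_norm_sq, lp2_norm_sq, ← tsum_mul_right]
    refine tsum_congr fun j => ?_
    rw [tens_apply, norm_smul, mul_pow]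
  exact (sq_eq_sq₀ (norm_nonneg _) (by positivity)).1 h

theorem tens_sub_left (θ θ' : Ltwo J ℝ) (g : L) : tens θ g - tens θ' g = tens (θ - θ') g := by
  ext j; simp [sub_smul]

/-- unit vectors -/
abbrev Unt (J : Type*) := Metric.sphere (0 : Ltwo J ℝ) 1

/-- `g ↦ θ ⊗ g` -/
noncomputable def iot (θ : Unt J) : L →ₗᵢ[ℝ] Ltwo J L where
  toFun g := tens θ.1 g
  map_add' g g' := by ext j; simp
  map_smul' r g := by
    ext j
    exact smul_comm (θ.1 j) r g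
  norm_map' g := by
    show ‖tens θ.1 g‖ = ‖g‖
    rw [norm_tens, mem_sphere_zero_iff_norm.1 θ.2, one_mul]

theorem iot_apply (θ : Unt J) (g : L) : iot θ g = tens θ.1 g := rfl

theorem norm_iot_sub (θ θ' : Unt J) (g : L) : ‖iot θ g - iot θ' g‖ = dist θ θ' * ‖g‖ := by
  rw [iot_apply, iot_apply, tens_sub_left, norm_tens, Subtype.dist_eq, dist_eq_norm]

end tens

/-! ### abstract Hilbert hotel -/

section hotel
variable {H L V : Type*} [NormedAddCommGroup H] [InnerProductSpace ℝ H]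
  [NormedAddCommGroup L] [InnerProductSpace ℝ L] [CompleteSpace L]
  [NormedAddCommGroup V] [InnerProductSpace ℝ V] [CompleteSpace V]

/-- coordinates with respect to an isometric embedding: `w ↦ ι† w` -/
noncomputable def co (ι : L →ₗᵢ[ℝ] V) : V →L[ℝ] L := ContinuousLinearMap.adjoint ι.toContinuousLinearMap

theorem co_ι (ι : L →ₗᵢ[ℝ] V) (g : L) : co ι (ι g) = g := by
  refine ext_inner_right ℝ fun g' => ?_
  unfold co
  rw [ContinuousLinearMap.adjoint_inner_left]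
  exact ι.inner_map_map g g'

theorem norm_co_le (ι : L →ₗᵢ[ℝ] V) (w : V) : ‖co ι w‖ ≤ ‖w‖ := by
  have h1 : ‖co ι‖ ≤ 1 := by
    unfold co
    rw [LinearIsometryEquiv.norm_map]
    exact ι.norm_toContinuousLinearMap_le
  calc ‖co ι w‖ ≤ ‖co ι‖ * ‖w‖ := (co ι).le_opNorm w
    _ ≤ 1 * ‖w‖ := by gcongr
    _ = ‖w‖ := one_mul _

theorem norm_sq_split (ι : L →ₗᵢ[ℝ] V) (w : V) (g : L) :
    ‖w - ι (co ι w) + ι g‖ ^ 2 = ‖w - ι (co ι w)‖ ^ 2 + ‖g‖ ^ 2 := by
  have h : inner ℝ (w - ι (co ι w)) (ι g) = 0 := by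
    have h1 : inner ℝ (co ι (w - ι (co ι w))) g = inner ℝ (w - ι (co ι w)) (ι g) := by
      unfold co
      rw [ContinuousLinearMap.adjoint_inner_left]
      rfl
    rw [← h1, map_sub, co_ι, sub_self, inner_zero_left]
  rw [norm_add_sq_real, h, ι.norm_map]
  ring

/-- the Hilbert-hotel isometry -/
noncomputable def hotel (σ : WithLp 2 (H × L) ≃ₗᵢ[ℝ] L) (ι : L →ₗᵢ[ℝ] V) :
    WithLp 2 (H × V) ≃ₗᵢ[ℝ] V where
  toFun z := z.snd - ι (co ι z.snd) + ι (σ (WithLp.toLp 2 (z.fst, co ι z.snd)))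
  map_add' z z' := by
    have h : WithLp.toLp 2 ((z + z').fst, co ι (z + z').snd) =
        WithLp.toLp 2 (z.fst, co ι z.snd) + WithLp.toLp 2 (z'.fst, co ι z'.snd) := by
      simp only [WithLp.add_snd, WithLp.add_fst, map_add]
      rfl
    rw [h, map_add, map_add, WithLp.add_snd, map_add, map_add]
    abel
  map_smul' r z := by
    have h : WithLp.toLp 2 ((r • z).fst, co ι (r • z).snd) =
        r • WithLp.toLp 2 (z.fst, co ι z.snd) := by
      simp only [WithLp.smul_snd, WithLp.smul_fst, map_smul]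
      rfl
    rw [h, map_smul, map_smul, WithLp.smul_snd, map_smul, map_smul, RingHom.id_apply, smul_add,
      smul_sub]
  invFun y := WithLp.toLp 2 ((σ.symm (co ι y)).fst, y - ι (co ι y) + ι (σ.symm (co ι y)).snd)
  left_inv z := by
    have h1 : co ι (z.snd - ι (co ι z.snd) + ι (σ (WithLp.toLp 2 (z.fst, co ι z.snd)))) =
        σ (WithLp.toLp 2 (z.fst, co ι z.snd)) := by
      rw [map_add, map_sub, co_ι, co_ι, sub_self, zero_add]
    simp only [h1, LinearIsometryEquiv.symm_apply_apply]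
    have h2 : z.snd - ι (co ι z.snd) + ι (σ (WithLp.toLp 2 (z.fst, co ι z.snd))) -
        ι (σ (WithLp.toLp 2 (z.fst, co ι z.snd))) + ι (co ι z.snd) = z.snd := by abel
    exact congrArg (fun t => WithLp.toLp 2 (z.fst, t)) h2
  right_inv y := by
    have h1 : co ι (y - ι (co ι y) + ι (σ.symm (co ι y)).snd) = (σ.symm (co ι y)).snd := by
      rw [map_add, map_sub, co_ι, co_ι, sub_self, zero_add]
    change (y - ι (co ι y) + ι (σ.symm (co ι y)).snd) -
        ι (co ι (y - ι (co ι y) + ι (σ.symm (co ι y)).snd)) +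
        ι (σ (WithLp.toLp 2 ((σ.symm (co ι y)).fst,
          co ι (y - ι (co ι y) + ι (σ.symm (co ι y)).snd)))) = y
    have h2 : WithLp.toLp 2 ((σ.symm (co ι y)).fst, (σ.symm (co ι y)).snd) = σ.symm (co ι y) := rfl
    rw [h1, h2, LinearIsometryEquiv.apply_symm_apply]
    abel
  norm_map' z := by
    have h1 := norm_sq_split ι z.snd (σ (WithLp.toLp 2 (z.fst, co ι z.snd)))
    have h2 := norm_sq_split ι z.snd (co ι z.snd)
    have h3 : ‖WithLp.toLp 2 (z.fst, co ι z.snd)‖ ^ 2 = ‖z.fst‖ ^ 2 + ‖co ι z.snd‖ ^ 2 :=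
      WithLp.prod_norm_sq_eq_of_L2 _
    have h4 := WithLp.prod_norm_sq_eq_of_L2 z
    rw [sub_add_cancel] at h2
    rw [LinearIsometryEquiv.norm_map, h3] at h1
    refine (sq_eq_sq₀ (norm_nonneg _) (norm_nonneg _)).1 ?_
    show ‖z.snd - ι (co ι z.snd) + ι (σ (WithLp.toLp 2 (z.fst, co ι z.snd)))‖ ^ 2 = ‖z‖ ^ 2
    rw [h1, h4, h2]
    ring

theorem hotel_apply (σ : WithLp 2 (H × L) ≃ₗᵢ[ℝ] L) (ι : L →ₗᵢ[ℝ] V) (z : WithLp 2 (H × V)) :
    hotel σ ι z = z.snd - ι (co ι z.snd) + ι (σ (WithLp.toLp 2 (z.fst, co ι z.snd))) := rfl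

theorem norm_co_sub_le {ι ι' : L →ₗᵢ[ℝ] V} {d : ℝ} (hd : 0 ≤ d)
    (h : ∀ g, ‖ι g - ι' g‖ ≤ d * ‖g‖) (w : V) : ‖co ι w - co ι' w‖ ≤ d * ‖w‖ := by
  have h1 : co ι - co ι' =
      ContinuousLinearMap.adjoint (ι.toContinuousLinearMap - ι'.toContinuousLinearMap) := by
    unfold co; rw [map_sub]
  have h2 : ‖co ι - co ι'‖ ≤ d := by
    rw [h1, LinearIsometryEquiv.norm_map]
    exact ContinuousLinearMap.opNorm_le_bound _ hd h
  calc ‖co ι w - co ι' w‖ = ‖(co ι - co ι') w‖ := rfl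
    _ ≤ ‖co ι - co ι'‖ * ‖w‖ := (co ι - co ι').le_opNorm w
    _ ≤ d * ‖w‖ := by gcongr

theorem norm_snd_le (z : WithLp 2 (H × V)) : ‖z.snd‖ ≤ ‖z‖ := by
  have h := WithLp.prod_norm_sq_eq_of_L2 z
  refine (sq_le_sq₀ (norm_nonneg _) (norm_nonneg _)).1 ?_
  rw [h]
  nlinarith [sq_nonneg ‖z.fst‖]

/-- Lipschitz dependence on the embedding -/
theorem norm_hotel_sub_le (σ : WithLp 2 (H × L) ≃ₗᵢ[ℝ] L) {ι ι' : L →ₗᵢ[ℝ] V} {d : ℝ} (hd : 0 ≤ d)
    (h : ∀ g, ‖ι g - ι' g‖ ≤ d * ‖g‖) (z : WithLp 2 (H × V)) :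
    ‖hotel σ ι z - hotel σ ι' z‖ ≤ 4 * d * ‖z‖ := by
  set A := σ (WithLp.toLp 2 (z.fst, co ι z.snd)) with hA
  set A' := σ (WithLp.toLp 2 (z.fst, co ι' z.snd)) with hA'
  have hz := norm_snd_le z
  have e : hotel σ ι z - hotel σ ι' z =
      (ι A - ι' A) - (ι (co ι z.snd) - ι' (co ι z.snd)) + ι' (A - A') -
        ι' (co ι z.snd - co ι' z.snd) := by
    rw [hotel_apply, hotel_apply, map_sub, map_sub]
    abel
  have h1 : ‖A‖ ≤ ‖z‖ := by
    rw [hA, LinearIsometryEquiv.norm_map]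
    refine (sq_le_sq₀ (norm_nonneg _) (norm_nonneg _)).1 ?_
    have h3 : ‖WithLp.toLp 2 (z.fst, co ι z.snd)‖ ^ 2 = ‖z.fst‖ ^ 2 + ‖co ι z.snd‖ ^ 2 :=
      WithLp.prod_norm_sq_eq_of_L2 _
    have h4 := WithLp.prod_norm_sq_eq_of_L2 z
    rw [h3, h4]
    have := norm_co_le ι z.snd
    have : ‖co ι z.snd‖ ^ 2 ≤ ‖z.snd‖ ^ 2 := by gcongr
    linarith
  have h2 : ‖co ι z.snd‖ ≤ ‖z‖ := (norm_co_le ι z.snd).trans hz
  have h3 : ‖co ι z.snd - co ι' z.snd‖ ≤ d * ‖z‖ :=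
    (norm_co_sub_le hd h z.snd).trans (by gcongr)
  have h4 : ‖A - A'‖ ≤ d * ‖z‖ := by
    have e2 : WithLp.toLp 2 (z.fst, co ι z.snd) - WithLp.toLp 2 (z.fst, co ι' z.snd) =
        WithLp.toLp 2 ((0 : H), co ι z.snd - co ι' z.snd) := by
      rw [← WithLp.toLp_sub, Prod.mk_sub_mk, sub_self]
    rw [hA, hA', ← map_sub, LinearIsometryEquiv.norm_map, e2]
    have h5 : ‖WithLp.toLp 2 ((0 : H), co ι z.snd - co ι' z.snd)‖ ^ 2 =
        ‖co ι z.snd - co ι' z.snd‖ ^ 2 := by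
      have := WithLp.prod_norm_sq_eq_of_L2 (WithLp.toLp 2 ((0 : H), co ι z.snd - co ι' z.snd))
      simpa only [WithLp.toLp_fst, WithLp.toLp_snd, norm_zero, ne_eq, OfNat.ofNat_ne_zero,
        not_false_eq_true, zero_pow, zero_add] using this
    have h6 := (sq_eq_sq₀ (norm_nonneg _) (norm_nonneg _)).1 h5
    rw [h6]; exact h3
  rw [e]
  calc ‖(ι A - ι' A) - (ι (co ι z.snd) - ι' (co ι z.snd)) + ι' (A - A') -
        ι' (co ι z.snd - co ι' z.snd)‖
      ≤ ‖ι A - ι' A‖ + ‖ι (co ι z.snd) - ι' (co ι z.snd)‖ + ‖ι' (A - A')‖ +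
        ‖ι' (co ι z.snd - co ι' z.snd)‖ := by
        refine (norm_sub_le _ _).trans (add_le_add_left ((norm_add_le _ _).trans
          (add_le_add_left (norm_sub_le _ _) _)) _)
    _ ≤ d * ‖z‖ + d * ‖z‖ + d * ‖z‖ + d * ‖z‖ := by
        rw [ι'.norm_map, ι'.norm_map]
        have i1 := (h A).trans (mul_le_mul_of_nonneg_left h1 hd)
        have i2 := (h (co ι z.snd)).trans (mul_le_mul_of_nonneg_left h2 hd)
        linarith
    _ = 4 * d * ‖z‖ := by ring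

end hotel

/-- The concrete Hilbert hotel: `J` nodes. -/
noncomputable def hotelJ {J H : Type*} [NormedAddCommGroup H] [InnerProductSpace ℝ H] [CompleteSpace H]
    (θ : Unt J) : WithLp 2 (H × Ltwo J (Ltwo ℕ H)) ≃ₗᵢ[ℝ] Ltwo J (Ltwo ℕ H) :=
  hotel consL (iot θ)

theorem norm_hotelJ_sub_le {J H : Type*} [NormedAddCommGroup H] [InnerProductSpace ℝ H]
    [CompleteSpace H] (θ θ' : Unt J) (z : WithLp 2 (H × Ltwo J (Ltwo ℕ H))) :
    ‖hotelJ θ z - hotelJ θ' z‖ ≤ 4 * dist θ θ' * ‖z‖ :=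
  norm_hotel_sub_le (H := H) (L := Ltwo ℕ H) (V := Ltwo J (Ltwo ℕ H)) consL (ι := iot θ)
    (ι' := iot θ') dist_nonneg (fun g => (norm_iot_sub θ θ' g).le) z

end Crest.Agent.R91.HM
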